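import Vale.Agent.P092.QT.H720.Avg
import Vale.Agent.P092.H242.ThCDefs

/-!
P092 (helper720), project Q, block [Q-2S], second part: the two sided algebra as a tracial Hilbert
algebra with its two integrable actions (instance of `HA`, `Act`, `Itg`, `Pk` of `H242/ThCDefs`).
-/

set_option linter.all false

open scoped InnerProductSpace Topology ENNReal NNReal
open Filter ContinuousLinearMap MeasureTheory
open Vale.Agent.P092.H160
open Vale.Agent.P092.QT.H156.Sm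
open Vale.Agent.P092.QT.H650

namespace Vale.Agent.P092.QT.H720

open Vale.Agent.P092.QT.H715.Q
open Vale.Agent.P092.H242.ThC

section alg

variable {Γ X Y G H K : Type} [Group Γ] [Group X] [Group Y] [Group G] [Group H]
  [Countable X] [Countable Y]
  [TopologicalSpace G] [TopologicalSpace H] [IsTopologicalGroup G] [IsTopologicalGroup H]
  [MeasurableSpace G] [BorelSpace G] [SecondCountableTopology G]
  [MeasurableSpace H] [BorelSpace H] [SecondCountableTopology H]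
  [NormedAddCommGroup K] [InnerProductSpace ℂ K] [CompleteSpace K]
  {V W : Γ →* (K →L[ℂ] K)} {f : X →* Γ} {ρ : X →* (K →L[ℂ] K)} {f' : Y →* Γ}
  {ρ' : Y →* (K →L[ℂ] K)} {ω ω' : K} {κ : Γ →* H}

/-- The two sided algebra. -/
noncomputable def TA (D : Dbl V W f ρ f' ρ' ω ω') (hκ : DenseRange κ) (p : Γ →* G) (μ : Measure G)
    (ν : Measure H) [μ.IsMulLeftInvariant] [ν.IsMulLeftInvariant] :
    NonUnitalStarSubalgebra ℂ (G → K →L[ℂ] K) where
  carrier := {b | TwS V f ρ ω ω' p κ μ ν b}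
  add_mem' := fun ha hb => TwS.add D hκ ha hb
  zero_mem' := TwS.zero D hκ
  mul_mem' := fun ha hb => TwS.mul D hκ ha hb
  smul_mem' := fun c _ hb => TwS.smul D hκ c hb
  star_mem' := fun hb => TwS.adj D hκ hb

variable (D : Dbl V W f ρ f' ρ' ω ω') (hκ : DenseRange κ) (p : Γ →* G) (μ : Measure G)
    (ν : Measure H) [μ.IsMulLeftInvariant] [ν.IsMulLeftInvariant]

theorem mem_TA {b : G → K →L[ℂ] K} : b ∈ TA D hκ p μ ν ↔ TwS V f ρ ω ω' p κ μ ν b := Iff.rfl

theorem TA_tws (b : TA D hκ p μ ν) : TwS V f ρ ω ω' p κ μ ν (b : G → K →L[ℂ] K) := b.2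

/-- The map to the Hilbert space. -/
noncomputable def jv : TA D hκ p μ ν →ₗ[ℂ] Lp K 2 μ where
  toFun := fun b => vec b.2.smo
  map_add' := fun a b => vec_add a.2.smo b.2.smo
  map_smul' := fun c b => vec_smul c b.2.smo

/-- The completion. -/
noncomputable def LL : Submodule ℂ (Lp K 2 μ) := (LinearMap.range (jv D hκ p μ ν)).topologicalClosure

instance : CompleteSpace (LL D hκ p μ ν) := by unfold LL; infer_instance

theorem jv_mem (b : TA D hκ p μ ν) : jv D hκ p μ ν b ∈ LL D hκ p μ ν :=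
  Submodule.le_topologicalClosure _ ⟨b, rfl⟩

/-- The map to the completion. -/
noncomputable def jj : TA D hκ p μ ν →ₗ[ℂ] LL D hκ p μ ν :=
  (jv D hκ p μ ν).codRestrict (LL D hκ p μ ν) (jv_mem D hκ p μ ν)

theorem jj_coe (b : TA D hκ p μ ν) : (jj D hκ p μ ν b : Lp K 2 μ) = vec b.2.smo := rfl

theorem inner_jj (a b : TA D hκ p μ ν) :
    ⟪jj D hκ p μ ν a, jj D hκ p μ ν b⟫_ℂ = ip ω μ (a : G → K →L[ℂ] K) (b : G → K →L[ℂ] K) :=
  (ip_eq_inner a.2.smo b.2.smo).symm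

theorem norm_jj (a : TA D hκ p μ ν) : ‖jj D hκ p μ ν a‖ = ‖vec a.2.smo‖ := rfl

theorem dense_jj : DenseRange (jj D hκ p μ ν) := by
  intro ξ
  have h1 : (ξ : Lp K 2 μ) ∈ closure (Set.range (jv D hκ p μ ν)) := by
    have h2 := ξ.2
    unfold LL at h2
    rwa [← SetLike.mem_coe, Submodule.topologicalClosure_coe, LinearMap.coe_range] at h2
  rw [Metric.mem_closure_iff] at h1 ⊢
  intro ε hε
  obtain ⟨b, ⟨c, rfl⟩, hb⟩ := h1 ε hε
  exact ⟨_, ⟨c, rfl⟩, hb⟩

theorem ha_jj : HA (jj D hκ p μ ν) where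
  dense := dense_jj D hκ p μ ν
  left := fun a b c => by
    rw [inner_jj, inner_jj]
    refine integral_congr_ae (Eventually.of_forall fun x => ?_)
    change ⟪a.1 x (b.1 x ω), c.1 x ω⟫_ℂ = ⟪b.1 x ω, adjoint (a.1 x) (c.1 x ω)⟫_ℂ
    rw [adjoint_inner_right]
  right := fun a b c => by
    rw [inner_jj, inner_jj]
    have e1 := ip_adj (μ := μ) D.fr.reg (a * b).2.smo.toFd c.2.smo.toFd (a * b).2.smo.l2 c.2.smo.l2
    have e2 := ip_adj (μ := μ) D.fr.reg a.2.smo.toFd (c * star b).2.smo.toFd a.2.smo.l2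
      (c * star b).2.smo.l2
    rw [← e1, ← e2]
    refine integral_congr_ae (Eventually.of_forall fun x => ?_)
    change ⟪adjoint (c.1 x) ω, adjoint (a.1 x * b.1 x) ω⟫_ℂ =
      ⟪adjoint (c.1 x * adjoint (b.1 x)) ω, adjoint (a.1 x) ω⟫_ℂ
    rw [adj_mul, adj_mul, adj_adj, mul_ap, mul_ap, adjoint_inner_right]
  tr := fun a b => by
    rw [inner_jj, inner_jj]
    exact ip_adj (μ := μ) D.fr.reg b.2.smo.toFd a.2.smo.toFd b.2.smo.l2 a.2.smo.l2
  bdd := fun a => by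
    obtain ⟨C, hC⟩ := a.2.smo.bdd
    have hC0 : 0 ≤ C := (norm_nonneg _).trans (hC 1)
    refine ⟨C, fun b => ?_⟩
    have h1 : ‖jj D hκ p μ ν (a * b)‖ ^ 2 = (nsq ω μ (a * b : TA D hκ p μ ν).1).toReal :=
      Vale.Agent.P092.QT.H156.Sm.norm_toLp_sq (a * b).2.smo.l2
    have h2 : ‖jj D hκ p μ ν b‖ ^ 2 = (nsq ω μ b.1).toReal :=
      Vale.Agent.P092.QT.H156.Sm.norm_toLp_sq b.2.smo.l2
    have h3 : nsq ω μ (a * b : TA D hκ p μ ν).1 ≤ ENNReal.ofReal C ^ 2 * nsq ω μ b.1 :=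
      nsq_mul_left hC
    have h4 := ENNReal.toReal_mono
      (ENNReal.mul_ne_top (by simp) (nsq_lt_top (μ := μ) b.2.smo.l2).ne) h3
    rw [ENNReal.toReal_mul, ENNReal.toReal_pow, ENNReal.toReal_ofReal hC0, ← h1, ← h2,
      ← mul_pow] at h4
    exact (sq_le_sq₀ (norm_nonneg _) (by positivity)).1 h4

end alg

section act

variable {Γ X Y G H K : Type} [Group Γ] [Group X] [Group Y] [Group G] [Group H]
  [Countable X] [Countable Y]
  [TopologicalSpace G] [TopologicalSpace H] [IsTopologicalGroup G] [IsTopologicalGroup H]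
  [MeasurableSpace G] [BorelSpace G] [SecondCountableTopology G]
  [MeasurableSpace H] [BorelSpace H] [SecondCountableTopology H]
  [NormedAddCommGroup K] [InnerProductSpace ℂ K] [CompleteSpace K]
  {V W : Γ →* (K →L[ℂ] K)} {f : X →* Γ} {ρ : X →* (K →L[ℂ] K)} {f' : Y →* Γ}
  {ρ' : Y →* (K →L[ℂ] K)} {ω ω' : K} {κ : Γ →* H} {p : Γ →* G}
  (D : Dbl V W f ρ f' ρ' ω ω') (hκ : DenseRange κ) (hp : DenseRange p) (μ : Measure G)
  (ν : Measure H) [μ.IsMulLeftInvariant] [ν.IsMulLeftInvariant]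

/-- The action of the source group. -/
noncomputable def aT [ν.IsMulRightInvariant] (h : H) (b : TA D hκ p μ ν) : TA D hκ p μ ν :=
  ⟨al κ V h b.1, TwS.al D hκ b.2 h⟩

include hp in
/-- The action of the target group. -/
noncomputable def rT [μ.IsMulRightInvariant] (y : G) (b : TA D hκ p μ ν) : TA D hκ p μ ν :=
  ⟨fun x => b.1 (x * y), TwS.rt D hκ hp b.2 y⟩

theorem exists_actH [ν.IsMulRightInvariant] :
    ∃ U : H →* (LL D hκ p μ ν →L[ℂ] LL D hκ p μ ν), Act (jj D hκ p μ ν) (aT D hκ μ ν) U := by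
  refine exists_act (dense_jj D hκ p μ ν) ?_ ?_ ?_ ?_ ?_ ?_ ?_ ?_
  · intro h a b
    refine Subtype.ext (funext fun x => ?_)
    exact al_mul D.fr hκ a.2.smo.acont b.2.smo.acont a.2.smo.bdd b.2.smo.bdd h x
  · intro h a
    refine Subtype.ext (funext fun x => ?_)
    exact al_adj D.fr hκ a.2.smo.acont h x
  · intro a
    refine Subtype.ext (funext fun x => ?_)
    exact al_one D.fr hκ a.2.smo.acont x
  · intro g h a
    refine Subtype.ext (funext fun x => ?_)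
    exact al_al D.fr hκ a.2.smo.acont g h x
  · intro h a b
    rw [← map_add]
    congr 1
    refine Subtype.ext (funext fun x => ?_)
    exact al_add D.fr hκ a.2.smo.acont b.2.smo.acont h x
  · intro h c a
    rw [← map_smul]
    congr 1
    refine Subtype.ext (funext fun x => ?_)
    exact al_smul D.fr hκ a.2.smo.acont c h x
  · intro h a
    exact norm_vec_al D.fr hκ a.2.smo h
  · intro a
    exact (continuous_vec_al D.fr hκ a.2.smo).subtype_mk _

theorem exists_actG [μ.IsMulRightInvariant] :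
    ∃ R : G →* (LL D hκ p μ ν →L[ℂ] LL D hκ p μ ν), Act (jj D hκ p μ ν) (rT D hκ hp μ ν) R := by
  refine exists_act (dense_jj D hκ p μ ν) ?_ ?_ ?_ ?_ ?_ ?_ ?_ ?_
  · intro h a b
    rfl
  · intro h a
    rfl
  · intro a
    refine Subtype.ext (funext fun x => ?_)
    change a.1 (x * 1) = a.1 x
    rw [mul_one]
  · intro g h a
    refine Subtype.ext (funext fun x => ?_)
    change a.1 (x * g * h) = a.1 (x * (g * h))
    rw [mul_assoc]
  · intro h a b
    rw [← map_add]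
    rfl
  · intro h c a
    rw [← map_smul]
    rfl
  · intro h a
    exact norm_vec_rt a.2.smo h
  · intro a
    exact (continuous_vec_rt D.fr a.2.smo).subtype_mk _

theorem aT_rT [ν.IsMulRightInvariant] [μ.IsMulRightInvariant] (h : H) (y : G)
    (a : TA D hκ p μ ν) : aT D hκ μ ν h (rT D hκ hp μ ν y a) = rT D hκ hp μ ν y (aT D hκ μ ν h a) := by
  refine Subtype.ext (funext fun x => ?_)
  exact al_rt κ V a.1 h y x

theorem re_self {E : Type} [NormedAddCommGroup E] [InnerProductSpace ℂ E] (x : E) :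
    (⟪x, x⟫_ℂ).re = ‖x‖ ^ 2 := by
  have := inner_self_eq_norm_sq (𝕜 := ℂ) x
  simpa using this

theorem itgG [μ.IsMulRightInvariant] [SFinite μ] (h1 : F1 (p.comp f) κ ρ V ω μ) :
    Itg (jj D hκ p μ ν) (rT D hκ hp μ ν) μ where
  int := fun a x => by
    have h2 := (avg_rt h1 a.2.smo a.2.smo x.2.smo.l2 x.2.smo.l2).1
    have h3 : (fun s => ‖jj D hκ p μ ν (rT D hκ hp μ ν s a * x)‖ ^ 2) =
        fun s => (∫ z, ⟪a.1 (z * s) (x.1 z ω), a.1 (z * s) (x.1 z ω)⟫_ℂ ∂μ).re := by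
      funext s
      have h4 := inner_jj D hκ p μ ν (rT D hκ hp μ ν s a * x) (rT D hκ hp μ ν s a * x)
      exact (re_self _).symm.trans (congrArg Complex.re h4)
    rw [h3]
    exact h2.re
  eq := fun a b x y => by
    have h2 := (avg_rt h1 a.2.smo b.2.smo x.2.smo.l2 y.2.smo.l2).2
    have h3 : ∀ s, ⟪jj D hκ p μ ν (rT D hκ hp μ ν s a * x), jj D hκ p μ ν (rT D hκ hp μ ν s b * y)⟫_ℂ =
        ∫ z, ⟪a.1 (z * s) (x.1 z ω), b.1 (z * s) (y.1 z ω)⟫_ℂ ∂μ := fun s =>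
      inner_jj D hκ p μ ν (rT D hκ hp μ ν s a * x) (rT D hκ hp μ ν s b * y)
    simp_rw [h3]
    rw [h2, inner_jj, inner_jj]
    rfl

include hp in
theorem itgH [μ.IsMulRightInvariant] [ν.IsMulRightInvariant] [SFinite μ] [SFinite ν]
    (h2 : F1 (κ.comp f') p ρ' W ω' ν) {c : ℝ} (hc : 0 < c)
    (hcc : ∀ a b, TwS V f ρ ω ω' p κ μ ν a → TwS V f ρ ω ω' p κ μ ν b →
      ip ω' ν (fl κ V a) (fl κ V b) = (c : ℂ) * ip ω μ a b) :
    Itg (jj D hκ p μ ν) (aT D hκ μ ν) (Real.toNNReal c⁻¹ • ν) where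
  int := fun a x => by
    have h2 := (avg_al D hκ hp h2 a.2 a.2 x.2.smo.l2 x.2.smo.l2).1
    have h3 : (fun h => ‖jj D hκ p μ ν (aT D hκ μ ν h a * x)‖ ^ 2) =
        fun h => (∫ z, ⟪al κ V h a.1 z (x.1 z ω), al κ V h a.1 z (x.1 z ω)⟫_ℂ ∂μ).re := by
      funext s
      have h4 := inner_jj D hκ p μ ν (aT D hκ μ ν s a * x) (aT D hκ μ ν s a * x)
      exact (re_self _).symm.trans (congrArg Complex.re h4)
    rw [h3]
    exact h2.re.smul_measure_nnreal
  eq := fun a b x y => by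
    have h2 := (avg_al D hκ hp h2 a.2 b.2 x.2.smo.l2 y.2.smo.l2).2
    have h3 : ∀ s, ⟪jj D hκ p μ ν (aT D hκ μ ν s a * x), jj D hκ p μ ν (aT D hκ μ ν s b * y)⟫_ℂ =
        ∫ z, ⟪al κ V s a.1 z (x.1 z ω), al κ V s b.1 z (y.1 z ω)⟫_ℂ ∂μ := fun s =>
      inner_jj D hκ p μ ν (aT D hκ μ ν s a * x) (aT D hκ μ ν s b * y)
    simp_rw [h3]
    rw [integral_smul_nnreal_measure, h2, inner_jj, inner_jj, hcc _ _ a.2 b.2, NNReal.smul_def,
      Real.coe_toNNReal _ (by positivity), Complex.real_smul]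
    change ((c⁻¹ : ℝ) : ℂ) * ((c : ℂ) * ip ω μ a.1 b.1 * ip ω μ x.1 y.1) = _
    have hc' : (c : ℂ) ≠ 0 := by exact_mod_cast hc.ne'
    rw [Complex.ofReal_inv]
    field_simp

/-- The package of Theorem C: the two sided algebra with its two commuting integrable actions. -/
theorem exists_pk [μ.IsMulRightInvariant] [ν.IsMulRightInvariant] [SFinite μ] [SFinite ν]
    [ν.IsInvInvariant] [μ.IsOpenPosMeasure] [ν.IsOpenPosMeasure]
    (h1 : F1 (p.comp f) κ ρ V ω μ) (h2 : F1 (κ.comp f') p ρ' W ω' ν) :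
    ∃ (c : ℝ≥0) (U : H →* (LL D hκ p μ ν →L[ℂ] LL D hκ p μ ν))
      (R : G →* (LL D hκ p μ ν →L[ℂ] LL D hκ p μ ν)), c ≠ 0 ∧
      Pk (jj D hκ p μ ν) (aT D hκ μ ν) U (c • ν) (rT D hκ hp μ ν) R μ := by
  obtain ⟨c, hc, hcc⟩ := exists_const (μ := μ) (ν := ν) D hκ hp h2
  obtain ⟨U, hU⟩ := exists_actH (p := p) D hκ μ ν
  obtain ⟨R, hR⟩ := exists_actG D hκ hp μ ν
  refine ⟨Real.toNNReal c⁻¹, U, R, ?_, ⟨ha_jj D hκ p μ ν, hU, itgH D hκ hp μ ν h2 hc hcc, hR,
    itgG D hκ hp μ ν h1, aT_rT D hκ hp μ ν⟩⟩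
  have : 0 < c⁻¹ := inv_pos.2 hc
  exact (Real.toNNReal_pos.2 this).ne'

end act

end Vale.Agent.P092.QT.H720
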