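import Vale.Agent.P092.QT.H720.TwA

/-!
P092 (helper720), project Q: multiplication of square integrable vector fields by bounded continuous
operator fields; the two sided fields are dense in the closure of all smooth fields.
-/

set_option linter.all false

open scoped InnerProductSpace Topology ENNReal NNReal
open Filter ContinuousLinearMap MeasureTheory
open Vale.Agent.P092.H160
open Vale.Agent.P092.QT.H156.Sm
open Vale.Agent.P092.QT.H650

namespace Vale.Agent.P092.QT.H720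



open Vale.Agent.P092.QT.H715.Q

section mo

variable {G K : Type} [TopologicalSpace G] [MeasurableSpace G] [BorelSpace G]
  [SecondCountableTopology G] [NormedAddCommGroup K] [InnerProductSpace ℂ K]
  {μ : Measure G} {F : G → K →L[ℂ] K} {C : ℝ}

theorem memLp_mo (hc : Continuous F) (hb : ∀ x, ‖F x‖ ≤ C) {ξ : G → K} (hξ : MemLp ξ 2 μ) :
    MemLp (fun x => F x (ξ x)) 2 μ := by
  refine MemLp.of_le_mul (c := C) hξ ?_ (Eventually.of_forall fun x => ?_)
  · exact (ContinuousLinearMap.id ℂ (K →L[ℂ] K)).aestronglyMeasurable_comp₂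
      hc.aestronglyMeasurable hξ.1
  · exact ((F x).le_opNorm _).trans (mul_le_mul_of_nonneg_right (hb x) (norm_nonneg _))

/-- Multiplication by a bounded continuous field. -/
noncomputable def mo (μ : Measure G) (hc : Continuous F) (hb : ∀ x, ‖F x‖ ≤ C) :
    Lp K 2 μ →L[ℂ] Lp K 2 μ :=
  LinearMap.mkContinuous
    { toFun := fun ξ => (memLp_mo hc hb (Lp.memLp ξ)).toLp _
      map_add' := fun ξ η => by
        rw [← MemLp.toLp_add]
        refine MemLp.toLp_congr _ _ ?_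
        filter_upwards [Lp.coeFn_add ξ η] with x hx
        rw [hx, Pi.add_apply, map_add]; rfl
      map_smul' := fun c ξ => by
        rw [RingHom.id_apply, ← MemLp.toLp_const_smul]
        refine MemLp.toLp_congr _ _ ?_
        filter_upwards [Lp.coeFn_smul c ξ] with x hx
        rw [hx, Pi.smul_apply, map_smul]; rfl }
    C (fun ξ => by
      refine Lp.norm_le_mul_norm_of_ae_le_mul ?_
      filter_upwards [(memLp_mo hc hb (Lp.memLp ξ)).coeFn_toLp] with x hx
      change ‖((memLp_mo hc hb (Lp.memLp ξ)).toLp (fun x => F x (ξ x)) : G → K) x‖ ≤ _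
      rw [hx]
      exact ((F x).le_opNorm _).trans (mul_le_mul_of_nonneg_right (hb x) (norm_nonneg _)))

theorem mo_ae (hc : Continuous F) (hb : ∀ x, ‖F x‖ ≤ C) (ξ : Lp K 2 μ) :
    (mo μ hc hb ξ : G → K) =ᵐ[μ] fun x => F x (ξ x) :=
  (memLp_mo hc hb (Lp.memLp ξ)).coeFn_toLp

theorem mo_toLp (hc : Continuous F) (hb : ∀ x, ‖F x‖ ≤ C) {ξ : G → K} (hξ : MemLp ξ 2 μ) :
    mo μ hc hb (hξ.toLp ξ) = (memLp_mo hc hb hξ).toLp _ := by
  refine MemLp.toLp_congr (memLp_mo hc hb (Lp.memLp (hξ.toLp ξ))) _ ?_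
  filter_upwards [hξ.coeFn_toLp] with x hx
  rw [hx]

theorem inner_mo [CompleteSpace K] (hc : Continuous F) (hb : ∀ x, ‖F x‖ ≤ C) (ξ η : Lp K 2 μ) :
    ⟪mo μ hc hb ξ, η⟫_ℂ = ∫ x, ⟪ξ x, adjoint (F x) (η x)⟫_ℂ ∂μ := by
  rw [MeasureTheory.L2.inner_def]
  refine integral_congr_ae ?_
  filter_upwards [mo_ae hc hb ξ] with x hx
  rw [hx, adjoint_inner_right]

end mo

section dn

variable {Γ X Y G H K : Type} [Group Γ] [Group X] [Group Y] [Group G] [Group H]
  [Countable X] [Countable Y]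
  [TopologicalSpace G] [TopologicalSpace H] [IsTopologicalGroup G] [IsTopologicalGroup H]
  [MeasurableSpace G] [BorelSpace G] [SecondCountableTopology G]
  [MeasurableSpace H] [BorelSpace H] [SecondCountableTopology H]
  [NormedAddCommGroup K] [InnerProductSpace ℂ K] [CompleteSpace K]
  {V W : Γ →* (K →L[ℂ] K)} {f : X →* Γ} {ρ : X →* (K →L[ℂ] K)} {f' : Y →* Γ}
  {ρ' : Y →* (K →L[ℂ] K)} {ω ω' : K} {κ : Γ →* H} {p : Γ →* G} {μ : Measure G} {ν : Measure H}
  [μ.IsMulLeftInvariant] [ν.IsMulLeftInvariant]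

/-- The space of smooth fields. -/
def SmS (ι : X →* G) (κ : Γ →* H) (ρ : X →* (K →L[ℂ] K)) (V : Γ →* (K →L[ℂ] K)) (ω : K)
    (μ : Measure G) : Submodule ℂ (G → K →L[ℂ] K) where
  carrier := {b | Smo ι κ ρ V ω μ b}
  add_mem' := fun ha hb => smo_add ha hb
  zero_mem' := smo_zero
  smul_mem' := fun c _ hb => smo_smul c hb

/-- The vectors of smooth fields. -/
noncomputable def sv (ι : X →* G) (κ : Γ →* H) (ρ : X →* (K →L[ℂ] K)) (V : Γ →* (K →L[ℂ] K))
    (ω : K) (μ : Measure G) : SmS ι κ ρ V ω μ →ₗ[ℂ] Lp K 2 μ where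
  toFun := fun b => vec b.2
  map_add' := fun a b => vec_add a.2 b.2
  map_smul' := fun c b => vec_smul c b.2

/-- The closure of the smooth fields. -/
noncomputable def QQ (ι : X →* G) (κ : Γ →* H) (ρ : X →* (K →L[ℂ] K)) (V : Γ →* (K →L[ℂ] K))
    (ω : K) (μ : Measure G) : Submodule ℂ (Lp K 2 μ) :=
  (LinearMap.range (sv ι κ ρ V ω μ)).topologicalClosure

theorem vec_mem_QQ {ι : X →* G} {b : G → K →L[ℂ] K} (hb : Smo ι κ ρ V ω μ b) :
    vec hb ∈ QQ ι κ ρ V ω μ := Submodule.le_topologicalClosure _ ⟨⟨b, hb⟩, rfl⟩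

theorem LL_le_QQ (D : Dbl V W f ρ f' ρ' ω ω') (hκ : DenseRange κ) :
    LL D hκ p μ ν ≤ QQ (p.comp f) κ ρ V ω μ := by
  refine Submodule.topologicalClosure_mono ?_
  rintro _ ⟨b, rfl⟩
  exact ⟨⟨b.1, b.2.smo⟩, rfl⟩

theorem mo_mem_QQ (hF : Frm ρ V ω) {ι : X →* G} {a : G → K →L[ℂ] K} (ha : Smo ι κ ρ V ω μ a)
    {C : ℝ} (hC : ∀ x, ‖a x‖ ≤ C) {ξ : Lp K 2 μ} (hξ : ξ ∈ QQ ι κ ρ V ω μ) :
    mo μ ha.toFd.continuous hC ξ ∈ QQ ι κ ρ V ω μ := by
  have h1 : ∀ η ∈ (LinearMap.range (sv ι κ ρ V ω μ) : Set (Lp K 2 μ)),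
      mo μ ha.toFd.continuous hC η ∈ (LinearMap.range (sv ι κ ρ V ω μ) : Set (Lp K 2 μ)) := by
    rintro _ ⟨b, rfl⟩
    refine ⟨⟨fun x => a x * b.1 x, ha.mul hF b.2⟩, ?_⟩
    exact (mo_toLp ha.toFd.continuous hC b.2.l2).symm
  have h2 : ξ ∈ closure (LinearMap.range (sv ι κ ρ V ω μ) : Set (Lp K 2 μ)) := by
    rw [← Submodule.topologicalClosure_coe]; exact hξ
  have h3 := map_mem_closure (mo μ ha.toFd.continuous hC).continuous h2 h1
  rw [← Submodule.topologicalClosure_coe] at h3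
  exact h3

/-- **(R1)**: the two sided fields are dense in the closure of all smooth fields. -/
theorem LL_eq_QQ [μ.IsMulRightInvariant] [μ.IsOpenPosMeasure] [SFinite μ]
    (D : Dbl V W f ρ f' ρ' ω ω') (hκ : DenseRange κ) (hp : DenseRange p)
    (h1 : F1 (p.comp f) κ ρ V ω μ) (hne : ∃ a, TwS V f ρ ω ω' p κ μ ν a ∧ a ≠ 0) :
    LL D hκ p μ ν = QQ (p.comp f) κ ρ V ω μ := by
  refine le_antisymm (LL_le_QQ D hκ) fun v hv => ?_
  haveI : (LL D hκ p μ ν).HasOrthogonalProjection := inferInstance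
  set P := (LL D hκ p μ ν).starProjection with hP
  set u := v - P v with hu
  have hPv : P v ∈ LL D hκ p μ ν := Submodule.starProjection_apply_mem _ _
  have huo : u ∈ (LL D hκ p μ ν)ᗮ := Submodule.sub_starProjection_mem_orthogonal v
  have huQ : u ∈ QQ (p.comp f) κ ρ V ω μ := Submodule.sub_mem _ hv (LL_le_QQ D hκ hPv)
  -- multiplication by two sided fields kills `u`
  have hkill : ∀ a, ∀ ha : TwS V f ρ ω ω' p κ μ ν a, ∀ᵐ z ∂μ, a z (u z) = 0 := by
    intro a ha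
    obtain ⟨C, hC⟩ := ha.smo.bdd
    have hw : mo μ ha.smo.toFd.continuous hC u ∈ QQ (p.comp f) κ ρ V ω μ :=
      mo_mem_QQ D.fr ha.smo hC huQ
    have horth : ∀ d : SmS (p.comp f) κ ρ V ω μ,
        ⟪mo μ ha.smo.toFd.continuous hC u, sv (p.comp f) κ ρ V ω μ d⟫_ℂ = 0 := by
      intro d
      have hd : TwS V f ρ ω ω' p κ μ ν (fun x => adjoint (a x) * d.1 x) :=
        (ha.adj D hκ).mul_right D hκ d.2.toFd d.2.acont
      have h2 : vec hd.smo ∈ LL D hκ p μ ν := jv_mem D hκ p μ ν ⟨_, hd⟩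
      have h3 := (Submodule.mem_orthogonal' _ _).1 huo _ h2
      rw [inner_mo, ← h3, MeasureTheory.L2.inner_def]
      refine integral_congr_ae ?_
      filter_upwards [hd.smo.l2.coeFn_toLp, d.2.l2.coeFn_toLp] with x hx hx'
      change ⟪u x, adjoint (a x) ((d.2.l2.toLp (fun x => d.1 x ω) : G → K) x)⟫_ℂ =
        ⟪u x, (hd.smo.l2.toLp (fun x => (adjoint (a x) * d.1 x) ω) : G → K) x⟫_ℂ
      rw [hx, hx', mul_ap]
    have hz : mo μ ha.smo.toFd.continuous hC u = 0 := by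
      have h4 : ∀ η ∈ QQ (p.comp f) κ ρ V ω μ,
          ⟪mo μ ha.smo.toFd.continuous hC u, η⟫_ℂ = 0 := by
        intro η hη
        have h5 : η ∈ closure (Set.range (sv (p.comp f) κ ρ V ω μ)) := by
          rw [← LinearMap.coe_range, ← Submodule.topologicalClosure_coe]; exact hη
        refine closure_minimal (s := Set.range (sv (p.comp f) κ ρ V ω μ))
          (t := {η | ⟪mo μ ha.smo.toFd.continuous hC u, η⟫_ℂ = 0}) ?_ ?_ h5
        · rintro _ ⟨d, rfl⟩
          exact horth d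
        · exact isClosed_eq (continuous_const.inner continuous_id) continuous_const
      have h6 := h4 _ hw
      rwa [inner_self_eq_zero] at h6
    have h7 := mo_ae ha.smo.toFd.continuous hC u
    rw [hz] at h7
    filter_upwards [h7, Lp.coeFn_zero K 2 μ] with z hz1 hz2
    rw [← hz1, hz2]; rfl
  obtain ⟨a, ha, ha0⟩ := hne
  have h8 := lint_rt h1 ha.smo (Lp.memLp u)
  have h9 : ∀ s, ∫⁻ z, ‖a (z * s) (u z)‖ₑ ^ 2 ∂μ = 0 := by
    intro s
    rw [lintegral_congr_ae (g := fun _ => 0)]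
    · simp
    · filter_upwards [hkill _ (ha.rt D hκ hp s)] with z hz
      rw [hz, enorm_zero, zero_pow two_ne_zero]
  simp_rw [h9] at h8
  rw [lintegral_zero] at h8
  have h10 := (mul_eq_zero.1 h8.symm).resolve_left
    (nsq_ne_zero (μ := μ) D.fr.reg ha.smo.toFd ha0)
  have h11 : u = 0 := by
    have h12 : ‖u‖ ^ 2 = 0 := by
      have h13 := norm_sq_toLp (Lp.memLp u)
      rw [Lp.toLp_coeFn] at h13
      rw [h13, integral_sq_eq (Lp.memLp u), h10, ENNReal.toReal_zero]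
    rw [sq_eq_zero_iff, norm_eq_zero] at h12
    exact h12
  have h14 : v = P v := sub_eq_zero.1 (hu ▸ h11)
  rw [h14]
  exact hPv

/-- The vector of every smooth field is in the completion of the two sided algebra. -/
theorem vec_mem_LL [μ.IsMulRightInvariant] [μ.IsOpenPosMeasure] [SFinite μ]
    (D : Dbl V W f ρ f' ρ' ω ω') (hκ : DenseRange κ) (hp : DenseRange p)
    (h1 : F1 (p.comp f) κ ρ V ω μ) (hne : ∃ a, TwS V f ρ ω ω' p κ μ ν a ∧ a ≠ 0)
    {b : G → K →L[ℂ] K} (hb : Smo (p.comp f) κ ρ V ω μ b) : vec hb ∈ LL D hκ p μ ν := by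
  rw [LL_eq_QQ D hκ hp h1 hne]
  exact vec_mem_QQ hb

end dn

end Vale.Agent.P092.QT.H720
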